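import Crest.Agent.R78.Basic
import Crest.Agent.R232.Minimax

/-!
# Row 78: generic minimax and Newton lemmas
-/

open scoped InnerProductSpace Topology ComplexConjugate
open Filter MeasureTheory

set_option linter.unusedSectionVars false

namespace Crest.Agent.R78

open Crest.Agent.R121 (Alg)

noncomputable section

universe u

variable {H : Type*} [NormedAddCommGroup H] [InnerProductSpace ℂ H] [CompleteSpace H]

/-- Ky Fan + compactness. If every finite mixture of the convex functions `e i` can be made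
`≤ ε` on the convex set `K`, there is an ultrafilter on `K` along which every `e i` is eventually
`≤ ε`. Recipe: for a finite nonempty `s : Finset I` and `n` use `R232.minimax_fun` (index type
`s`) to get `t (s, n) ∈ K` with `e i (t (s, n)) < 1/(n+1)` for `i ∈ s`; push forward an
ultrafilter `≤ atTop` on `Finset I × ℕ` (for `s = ∅` use the hypothesis `hK`). -/
theorem fan_ultra {E : Type*} [AddCommGroup E] [Module ℝ E] {I : Type*} (K : Set E)
    (hK : K.Nonempty) (e : I → E → ℝ) (he : ∀ i, ConvexOn ℝ K (e i))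
    (h : ∀ (s : Finset I) (μ : I → ℝ), (∀ i, 0 ≤ μ i) → ∑ i ∈ s, μ i = 1 → ∀ ε > 0,
      ∃ t ∈ K, ∑ i ∈ s, μ i * e i t ≤ ε) :
    ∃ 𝒰 : Ultrafilter E, K ∈ 𝒰 ∧ ∀ i, ∀ ε > 0, ∀ᶠ t in (𝒰 : Filter E), e i t ≤ ε := by
  classical
  have key : ∀ p : Finset I × ℕ, ∃ t ∈ K, ∀ i ∈ p.1, e i t < 1 / ((p.2 : ℝ) + 1) := by
    rintro ⟨s, n⟩
    rcases s.eq_empty_or_nonempty with rfl | hs
    · exact ⟨_, hK.some_mem, fun i hi => absurd hi (Finset.notMem_empty i)⟩
    have := hs.to_subtype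
    have hn : 0 < 1 / ((n : ℝ) + 1) := by positivity
    obtain ⟨t, ht, h1⟩ := R232.minimax_fun K (fun i : s => e i) (fun i => he i) _ _ (half_lt_self hn)
      fun σ h0 h1 => by
        obtain ⟨t, ht, h2⟩ := h s (fun i => if h : i ∈ s then σ ⟨i, h⟩ else 0)
          (fun i => by split_ifs; exacts [h0 _, le_rfl])
          (by rw [← Finset.sum_coe_sort, ← h1]; simp) _ (half_pos hn)
        refine ⟨t, ht, le_of_eq_of_le ?_ h2⟩
        rw [← Finset.sum_coe_sort s]
        simp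
    exact ⟨t, ht, fun i hi => h1 ⟨i, hi⟩⟩
  choose t ht h1 using key
  refine ⟨(Ultrafilter.of atTop).map t, Ultrafilter.mem_map.2 (univ_mem' ht), fun i ε hε => ?_⟩
  obtain ⟨n, hn⟩ := exists_nat_one_div_lt hε
  rw [Ultrafilter.coe_map, eventually_map]
  refine Ultrafilter.of_le atTop ((eventually_ge_atTop ({i}, n)).mono fun p hp => ?_)
  refine (h1 p i (hp.1 (Finset.mem_singleton_self i))).le.trans (le_trans ?_ hn.le)
  exact Nat.one_div_le_one_div hp.2

/-- Abstract Newton iteration: the defect halves at each step, the step is proportional to the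
defect. -/
theorem newton {X : Type*} [MetricSpace X] [CompleteSpace X] (D : X → ℝ → Prop) (x₀ : X)
    {d₀ C r : ℝ} (hd : 0 ≤ d₀) (hC : 0 ≤ C) (hr : 2 * C * d₀ ≤ r) (h₀ : D x₀ d₀)
    (step : ∀ x d, dist x x₀ ≤ r → 0 ≤ d → d ≤ d₀ → D x d →
      ∃ x', dist x' x ≤ C * d ∧ D x' (d / 2)) :
    ∃ (x : X) (s : ℕ → X), dist x x₀ ≤ 2 * C * d₀ ∧ Tendsto s atTop (𝓝 x) ∧
      (∀ n, dist (s n) x₀ ≤ 2 * C * d₀) ∧ ∀ n, D (s n) (d₀ / 2 ^ n) := by
  have key : ∀ (n : ℕ) (x : X), dist x x₀ ≤ 2 * C * (d₀ - d₀ / 2 ^ n) ∧ D x (d₀ / 2 ^ n) →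
      ∃ x', (dist x' x₀ ≤ 2 * C * (d₀ - d₀ / 2 ^ (n + 1)) ∧ D x' (d₀ / 2 ^ (n + 1))) ∧
        dist x x' ≤ 2 * C * d₀ / 2 / 2 ^ n := by
    rintro n x ⟨h1, h2⟩
    have h3 : 0 ≤ d₀ / 2 ^ n := by positivity
    obtain ⟨x', h4, h5⟩ := step x _ (by nlinarith [mul_nonneg hC h3]) h3
      (div_le_self hd (one_le_pow₀ one_le_two)) h2
    refine ⟨x', ⟨?_, by rwa [pow_succ, ← div_div]⟩, (dist_comm _ _).trans_le (h4.trans_eq (by ring))⟩
    rw [pow_succ, ← div_div]
    linarith [dist_triangle x' x x₀]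
  choose! g hg hg' using key
  obtain ⟨s, s0, hs⟩ : ∃ s : ℕ → X, s 0 = x₀ ∧ ∀ n, s (n + 1) = g n (s n) :=
    ⟨fun n => Nat.rec x₀ g n, rfl, fun _ => rfl⟩
  have h1 : ∀ n, dist (s n) x₀ ≤ 2 * C * (d₀ - d₀ / 2 ^ n) ∧ D (s n) (d₀ / 2 ^ n) := by
    intro n
    induction n with
    | zero => simpa [s0] using h₀
    | succ n ih => exact hs n ▸ hg n _ ih
  have h2 : ∀ n, dist (s n) x₀ ≤ 2 * C * d₀ := fun n => (h1 n).1.trans
    (mul_le_mul_of_nonneg_left (sub_le_self _ (by positivity)) (by positivity))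
  obtain ⟨x, hx⟩ := cauchySeq_tendsto_of_complete
    (cauchySeq_of_le_geometric_two (f := s) fun n => hs n ▸ hg' n _ (h1 n))
  exact ⟨x, s, le_of_tendsto' (hx.dist tendsto_const_nhds) h2, hx, h2, fun n => (h1 n).2⟩

theorem gen_slope (X : Op H) :
    Tendsto (fun n : ℕ => (n : ℂ) • (NormedSpace.exp ((n : ℂ)⁻¹ • X) - 1)) atTop (𝓝 X) := by
  have h1 := (hasDerivAt_exp_smul_const X (0 : ℂ)).tendsto_slope_zero
  have h2 : Tendsto (fun n : ℕ => (n : ℂ)⁻¹) atTop (𝓝[≠] 0) :=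
    tendsto_nhdsWithin_iff.2 ⟨tendsto_inv_atTop_nhds_zero_nat, by
      filter_upwards [eventually_ge_atTop 1] with n hn
      exact inv_ne_zero (by exact_mod_cast Nat.one_le_iff_ne_zero.1 hn)⟩
  simpa [Function.comp_def] using h1.comp h2

theorem gen_pow_sub {a b : Op H} {M : ℝ} (hM : 1 ≤ M) (ha : ‖a‖ ≤ M) (hb : ‖b‖ ≤ M) (n : ℕ) :
    ‖a ^ n - b ^ n‖ ≤ n * M ^ n * ‖a - b‖ := by
  have h0 : 0 ≤ M := by linarith
  have h1 : ∀ n, ‖b ^ n‖ ≤ M ^ n := fun n => by
    induction n with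
    | zero => exact ContinuousLinearMap.norm_id_le
    | succ n ih =>
      rw [pow_succ, pow_succ]
      exact (norm_mul_le _ _).trans (mul_le_mul ih hb (norm_nonneg _) (by positivity))
  induction n with
  | zero => simp
  | succ n ih =>
    rw [show a ^ (n + 1) - b ^ (n + 1) = a * (a ^ n - b ^ n) + (a - b) * b ^ n by
      rw [pow_succ', pow_succ']; noncomm_ring]
    have h2 := (norm_mul_le a (a ^ n - b ^ n)).trans (mul_le_mul ha ih (norm_nonneg _) h0)
    have h3 := (norm_mul_le (a - b) (b ^ n)).trans (mul_le_mul_of_nonneg_left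
      ((h1 n).trans (pow_le_pow_right₀ hM (n.le_add_right 1))) (norm_nonneg _))
    refine (norm_add_le _ _).trans ((add_le_add h2 h3).trans_eq ?_)
    push_cast
    ring

/-- `(1 + X/n + O(1/n²))^n → exp X`, quantitatively: telescoping against `exp (X/n)`. -/
theorem tendsto_pow_exp (X : Op H) (T : ℕ → Op H) {C : ℝ}
    (h : ∀ n : ℕ, 1 ≤ n → ‖T n - (1 + ((n : ℂ)⁻¹) • X)‖ ≤ C / (n : ℝ) ^ 2) :
    Tendsto (fun n => T n ^ n) atTop (𝓝 (NormedSpace.exp X)) := by
  have h1 : Tendsto (fun n : ℕ => (n : ℝ) * ‖T n - (1 + (n : ℂ)⁻¹ • X)‖) atTop (𝓝 0) := by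
    refine squeeze_zero' (Eventually.of_forall fun n => by positivity) ?_
      (tendsto_const_div_atTop_nhds_zero_nat C)
    filter_upwards [eventually_ge_atTop 1] with n hn
    have h0 : (0 : ℝ) < n := by exact_mod_cast hn
    refine (mul_le_mul_of_nonneg_left (h n hn) h0.le).trans_eq ?_
    field_simp
  have h2 : Tendsto (fun n : ℕ => (n : ℝ) *
      ‖NormedSpace.exp ((n : ℂ)⁻¹ • X) - (1 + (n : ℂ)⁻¹ • X)‖) atTop (𝓝 0) := by
    refine (tendsto_iff_norm_sub_tendsto_zero.1 (gen_slope X)).congr' ?_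
    filter_upwards [eventually_ge_atTop 1] with n hn
    have h0 : (n : ℂ) ≠ 0 := by exact_mod_cast Nat.one_le_iff_ne_zero.1 hn
    rw [← Complex.norm_natCast, ← norm_smul, ← sub_sub, smul_sub (n : ℂ) _ ((n : ℂ)⁻¹ • X),
      smul_inv_smul₀ h0]
  have h3 : ∀ (n : ℕ) (a : Op H), 1 ≤ n → (n : ℝ) * ‖a - (1 + (n : ℂ)⁻¹ • X)‖ < 1 →
      ‖a‖ ≤ Real.exp ((‖X‖ + 1) / n) := fun n a hn ha => by
    have h0 : (0 : ℝ) < n := by exact_mod_cast hn
    have a1 : ‖a - (1 + (n : ℂ)⁻¹ • X)‖ ≤ 1 / n := by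
      rw [le_div_iff₀' h0]
      exact ha.le
    have a2 := norm_add_le (1 : Op H) ((n : ℂ)⁻¹ • X)
    rw [norm_smul, norm_inv, Complex.norm_natCast, ← div_eq_inv_mul] at a2
    have a3 : ‖(1 : Op H)‖ ≤ 1 := ContinuousLinearMap.norm_id_le
    have a4 := Real.add_one_le_exp ((‖X‖ + 1) / n)
    rw [add_div] at a4 ⊢
    linarith [norm_sub_norm_le a (1 + (n : ℂ)⁻¹ • X)]
  refine tendsto_iff_norm_sub_tendsto_zero.2 (squeeze_zero' (Eventually.of_forall fun n =>
    norm_nonneg _) ?_ (by simpa using (h1.add h2).const_mul (Real.exp (‖X‖ + 1))))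
  filter_upwards [eventually_ge_atTop 1, h1.eventually (gt_mem_nhds one_pos),
    h2.eventually (gt_mem_nhds one_pos)] with n hn a1 a2
  have h0 : (n : ℂ) ≠ 0 := by exact_mod_cast Nat.one_le_iff_ne_zero.1 hn
  have h0' : (0 : ℝ) < n := by exact_mod_cast hn
  have e : NormedSpace.exp X = NormedSpace.exp ((n : ℂ)⁻¹ • X) ^ n := by
    let : NormedAlgebra ℚ (Op H) := NormedAlgebra.restrictScalars ℚ ℂ _
    rw [← NormedSpace.exp_nsmul, ← Nat.cast_smul_eq_nsmul ℂ, smul_inv_smul₀ h0]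
  rw [e]
  refine (gen_pow_sub (Real.one_le_exp (by positivity)) (h3 n _ hn a1) (h3 n _ hn a2) n).trans ?_
  rw [← Real.exp_nat_mul, mul_div_cancel₀ _ h0'.ne', mul_comm (n : ℝ), mul_assoc, ← mul_add]
  gcongr
  exact norm_sub_le_norm_sub_add_norm_sub _ _ _ |>.trans_eq (by rw [norm_sub_rev (1 + _)])

/-- If `exp (s X) v = v` for all `s ∈ (0, 1]` then `X v = 0`. -/
theorem apply_eq_zero_of_exp {X : Op H} {v : H}
    (h : ∀ s : ℝ, 0 < s → s ≤ 1 → NormedSpace.exp ((s : ℂ) • X) v = v) : X v = 0 := by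
  have h1 := ((ContinuousLinearMap.apply ℂ H v).continuous.tendsto X).comp (gen_slope X)
  refine tendsto_nhds_unique h1 (tendsto_const_nhds.congr' ?_)
  filter_upwards [eventually_ge_atTop 1] with n hn
  have h0 : (1 : ℝ) ≤ n := by exact_mod_cast hn
  have h2 := h (n : ℝ)⁻¹ (by positivity) (inv_le_one_of_one_le₀ h0)
  push_cast at h2
  simp [h2]

/-- Alaoglu–Birkhoff: for a convex semigroup of contractions containing `1`, the closure of every
orbit contains a common fixed vector (the element of minimal norm of the closed convex orbit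
closure, `exists_norm_eq_iInf_of_complete_convex`; uniqueness by the parallelogram law). -/
theorem exists_fixed_of_semigroup (S : Set (Op H)) (hconv : Convex ℝ S) (h1 : (1 : Op H) ∈ S)
    (hmul : ∀ a ∈ S, ∀ b ∈ S, a * b ∈ S) (hn : ∀ a ∈ S, ‖a‖ ≤ 1) (v : H) :
    ∃ v₀ ∈ closure ((fun a : Op H => a v) '' S), ∀ a ∈ S, a v₀ = v₀ := by
  let := InnerProductSpace.rclikeToReal ℂ H
  have hc : Convex ℝ (closure ((fun a : Op H => a v) '' S)) := by
    refine Convex.closure ?_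
    rintro _ ⟨a, ha, rfl⟩ _ ⟨b, hb, rfl⟩ s t hs ht hst
    exact ⟨_, hconv ha hb hs ht hst, rfl⟩
  obtain ⟨w, hw, h0⟩ := exists_norm_eq_iInf_of_complete_convex
    ⟨_, subset_closure (Set.mem_image_of_mem _ h1)⟩ isClosed_closure.isComplete hc 0
  refine ⟨w, hw, fun a ha => ?_⟩
  have h2 : a w ∈ closure ((fun a : Op H => a v) '' S) :=
    map_mem_closure a.continuous hw (by
      rintro _ ⟨b, hb, rfl⟩
      exact ⟨a * b, hmul a ha b hb, rfl⟩)
  have h3 := hc h2 hw (a := 1 / 2) (b := 1 / 2) (by norm_num) (by norm_num) (by norm_num)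
  have h4 := ciInf_le (f := fun w : closure ((fun a : Op H => a v) '' S) => ‖0 - (w : H)‖)
    ⟨0, by rintro _ ⟨w, rfl⟩; exact norm_nonneg _⟩ ⟨_, h3⟩
  rw [← h0, Subtype.coe_mk, zero_sub, zero_sub, norm_neg, norm_neg, ← smul_add, norm_smul,
    Real.norm_of_nonneg (by norm_num)] at h4
  have h5 : ‖a w‖ ≤ ‖w‖ := (a.le_opNorm w).trans (mul_le_of_le_one_left (norm_nonneg _) (hn a ha))
  have h6 := parallelogram_law_with_norm ℂ (a w) w
  have h7 : ‖a w - w‖ ^ 2 ≤ 0 := by nlinarith [norm_nonneg w, norm_nonneg (a w)]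
  exact sub_eq_zero.1 (norm_eq_zero.1 (pow_eq_zero_iff two_ne_zero |>.1 (h7.antisymm (sq_nonneg _))))

/-- Extension of a linear map dominated by a linear map into a Hilbert space
(extend by continuity to the closure of the range, compose with the orthogonal projection). -/
theorem exists_extend {E K : Type*} [AddCommGroup E] [Module ℂ E] [NormedAddCommGroup K]
    [InnerProductSpace ℂ K] [CompleteSpace K] (e : E →ₗ[ℂ] H) (f : E →ₗ[ℂ] K) {C : ℝ}
    (hC : 0 ≤ C) (h : ∀ x, ‖f x‖ ≤ C * ‖e x‖) :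
    ∃ T : H →L[ℂ] K, ‖T‖ ≤ C ∧ (∀ x, T (e x) = f x) ∧
      ∀ v, (∀ x, ⟪e x, v⟫_ℂ = 0) → T v = 0 := by
  let U := (LinearMap.range e).topologicalClosure
  let e' : E →ₗ[ℂ] U := e.codRestrict U fun x => Submodule.le_topologicalClosure _ ⟨x, rfl⟩
  have hd : DenseRange e' := Subtype.dense_iff.2 (by
    rw [← Set.range_comp]
    exact subset_rfl)
  refine ⟨(f.extendOfNorm e').comp U.orthogonalProjectionOnto, ?_, fun x => ?_, fun v hv => ?_⟩
  · refine (ContinuousLinearMap.opNorm_comp_le _ _).trans ?_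
    exact (mul_le_mul (LinearMap.opNorm_extendOfNorm_le hd hC h) U.orthogonalProjectionOnto_norm_le
      (ContinuousLinearMap.opNorm_nonneg _) hC).trans_eq (mul_one C)
  · exact (congrArg _ (U.orthogonalProjectionOnto_mem_subspace_eq_self (e' x))).trans
      (LinearMap.extendOfNorm_eq hd ⟨C, h⟩ x)
  · have h1 : v ∈ Uᗮ := by
      rw [Submodule.orthogonal_closure]
      rintro _ ⟨x, rfl⟩
      exact hv x
    rw [ContinuousLinearMap.comp_apply, Submodule.orthogonalProjectionOnto_apply_of_mem_orthogonal h1,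
      map_zero]

end

end Crest.Agent.R78
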